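import Vale.Agent.P366Z.One0

/-!
# P366Z: the data of the flow
-/

open MeasureTheory Metric Filter Topology Set
open scoped ContDiff ENNReal
open Vale.Agent.P366.Stmt

noncomputable section

namespace Vale.Agent.P366Z

/-- the output of one step -/
structure Dt (n : ℕ) where
  ψ : E n → ℝ
  h : E n → ℝ
  βh : ℝ
  R₁ : ℝ

/-- the parameters of the flow -/
structure Pm (n : ℕ) where
  B : Bg n
  m : E n → ℝ
  p : E n → ℝ
  q : E n → ℝ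
  f : ℝ → ℝ
  N : ℕ
  L : ℝ
  μ : ℝ
  μ₁ : ℝ
  β₀ : ℝ
  r₀ : ℝ
  rh : ℝ
  τ : ℝ
  e₂ : ℝ
  θ : ℝ
  δ : ℝ
  κ : ℝ
  η : ℝ
  C : ℝ
  C' : ℝ
  C₀ : ℝ
  c : ℝ
  K : ℝ
  D : ℝ

variable {n : ℕ}

/-- the statement of `HARN` with the constant `C` -/
def HarnC (n : ℕ) (C : ℝ) : Prop := ∀ (v : E n → ℝ) (a β R S : ℝ), 1 ≤ R → 0 ≤ a →
  Smooth v → (∀ x, R ≤ ‖x‖ → 0 ≤ v x ∧ lap (eu n) v x ≤ 0 ∧
    |lap (eu n) v x| ≤ S * ‖x‖ ^ (-(n + 2) : ℝ)) → Asy v a β →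
  ∀ x, 4 * R ≤ ‖x‖ → v x ≤ C * (a + |β| * ‖x‖ ^ (2 - n : ℝ) + S)

theorem exists_lag {l t : ℝ} (h1 : 1 / 2 ≤ l) (h2 : l < 1) (t0 : 0 < t) (t1 : t ≤ 1) :
    ∃ J : ℕ, t / 2 ≤ l ^ (J + 1) ∧ l ^ (J + 1) ≤ t := by
  obtain ⟨J, h3, h4⟩ := exists_nat_pow_near_of_lt_one t0 t1 (by linarith) h2
  refine ⟨J, ?_, h3.le⟩
  rw [pow_succ]
  nlinarith [pow_pos (show 0 < l by linarith) J]

theorem Fc.nonneg {η' η'' : ℝ} {f : ℝ → ℝ} (hf : Fc η' η'' f) (t : ℝ) : 0 ≤ f t := by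
  have hm : Monotone f := monotone_of_deriv_nonneg (hf.sm.differentiable (by simp))
    fun t => (hf.d1 t).1
  rcases le_total t η' with h | h
  · rw [hf.zero t h]
  · rw [← hf.zero η' le_rfl]; exact hm h

namespace Pm

variable (P : Pm n) (d : ℕ → Dt n)

/-- the factor of one step -/
def lam : ℝ := 1 - P.τ * (1 - P.e₂)

/-- the limit at infinity -/
def a (k : ℕ) : ℝ := P.lam ^ k

/-- the radius of the horizon of the model -/
def rs (k : ℕ) : ℝ := P.r₀ * P.a k ^ (-bb n)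

/-- the radius of the confinement -/
def rH (k : ℕ) : ℝ := P.rh * P.a k ^ (-bb n)

/-- the loss of the collar in one step -/
def ρ' : ℝ := P.B.s / (2 * P.N)

/-- the width of the collar -/
def s (k : ℕ) : ℝ := P.B.s - k * P.ρ'

/-- the weight of the volume -/
def κs (k : ℕ) : ℝ := P.κ * (1 + k / P.N)

/-- the conformal factors -/
def U : ℕ → E n → ℝ
  | 0 => P.B.U
  | k + 1 => fun x => U k x * (1 - P.τ * P.f ((d k).h x))

/-- the coefficients -/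
def β : ℕ → ℝ
  | 0 => P.β₀
  | k + 1 => β k * (1 + P.τ * P.e₂) - P.τ * (d k).βh

/-- the largest radius so far -/
def ϱ : ℕ → ℝ
  | 0 => P.B.ρ
  | k + 1 => max (ϱ k) (d k).R₁

/-- the radius of the state -/
def R (k : ℕ) : ℝ := (1 + P.δ / 2) * max (P.ϱ d k) (P.rs k)

/-- one step -/
def Stp (k : ℕ) (U : E n → ℝ) (β : ℝ) (t : Dt n) : Prop :=
  Out P.B P.L P.m U (P.a k) β (P.s k) (P.κs k) P.θ P.θ P.ρ' P.η P.C t.ψ t.h t.βh t.R₁ ∧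
    t.R₁ ≤ P.rH k ∧ Tip P.B U (P.a k) P.C₀ P.c P.K P.D P.η t.ψ t.R₁

/-- the first `K` steps are done -/
def Good (K : ℕ) : Prop := ∀ k < K, P.Stp k (P.U d k) (P.β d k) (d k)

/-- the mass of the step -/
def mt (k : ℕ) : ℝ := P.β d k + (1 - P.θ) * (d k).βh

/-- the basic relations between the parameters -/
structure Ok : Prop where
  hB : P.B.Ok
  hP : Pen P.B P.L P.m P.p P.q
  hf : Fc P.θ P.e₂ P.f
  θ0 : 0 < P.θ
  θ1 : P.θ ≤ 1 / 8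
  τ0 : 0 < P.τ
  τ1 : P.τ ≤ 1 / 2
  asy : Asy P.B.U 1 P.β₀
  μ0 : 0 < P.μ
  β0 : 2 * P.β₀ ≤ P.μ
  μ1 : P.μ * Real.exp (6 * P.τ * P.θ) ^ P.N ≤ P.μ₁
  μ2 : P.μ₁ ≤ 2 * P.μ
  r0 : 0 < P.r₀
  rp : P.r₀ ^ (n - 2 : ℝ) = P.μ₁ / 2
  r1 : P.r₀ ≤ P.rh
  ρh : P.B.ρ ≤ P.rh
  δ0 : 0 < P.δ
  δ1 : P.δ ≤ 1
  src : 2 * P.B.δ ≤ P.a P.N
  N4 : 4 < P.N
  hθ : 6 * P.C₀ * P.θ ≤ P.δ
  u1a : ∃ CH t : ℝ, HarnC n CH ∧ 0 < t ∧ t ≤ 1 ∧ 12 * t ^ bb n ≤ 1 ∧
    |CH| * (4 / t + 1) ≤ P.C' ∧ 4 / t ≤ P.C'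
  u1b : ∃ t : ℝ, 0 < t ∧ t ≤ 1 ∧ P.rh * t ^ bb n ≤ P.r₀ ∧ 2 * P.C' / t ≤ P.C₀ ∧ 4 / t ≤ P.C₀
  κ0 : 0 < P.κ
  η0 : 0 < P.η

variable {P d} {d' : ℕ → Dt n} {k K : ℕ}

theorem congr_d (e : ∀ j < k, d j = d' j) : P.U d k = P.U d' k ∧ P.β d k = P.β d' k := by
  induction k with
  | zero => exact ⟨rfl, rfl⟩
  | succ k ih =>
    obtain ⟨h1, h2⟩ := ih fun j hj => e j (by omega)
    simp only [U, β, h1, h2, e k (by omega), and_self]

theorem Good.update (hG : P.Good d K) {t : Dt n} (ht : P.Stp K (P.U d K) (P.β d K) t) :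
    P.Good (Function.update d K t) (K + 1) := by
  intro k hk
  obtain ⟨h1, h2⟩ := congr_d (P := P) (d := Function.update d K t) (d' := d) (k := k)
    fun j hj => Function.update_of_ne (by omega) _ _
  rw [h1, h2]
  rcases Nat.lt_succ_iff_lt_or_eq.1 hk with h | rfl
  · rw [Function.update_of_ne h.ne]; exact hG k h
  · rw [Function.update_self]; exact ht

theorem Good.mono (hG : P.Good d K) (hk : k ≤ K) : P.Good d k := fun j hj => hG j (by omega)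

namespace Ok

variable (H : P.Ok)
include H

theorem dim : 3 ≤ n := H.hB.dim

theorem e0 : 0 < P.e₂ := H.θ0.trans_le H.hf.le.1

theorem e1 : P.e₂ ≤ 2 * P.θ := H.hf.le.2

theorem lam_lo : 1 - P.τ ≤ P.lam := by
  unfold lam; nlinarith [H.e0, H.τ0]

theorem lam_hi : P.lam ≤ 1 - P.τ / 2 := by
  unfold lam; nlinarith [H.e1, H.τ0, H.θ1]

theorem lam_half : 1 / 2 ≤ P.lam := by linarith [H.lam_lo, H.τ1]

theorem lam_lt : P.lam < 1 := by linarith [H.lam_hi, H.τ0]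

theorem lam_pos : 0 < P.lam := by linarith [H.lam_half]

theorem a_pos (k : ℕ) : 0 < P.a k := pow_pos H.lam_pos k

theorem a_anti {i k : ℕ} (h : i ≤ k) : P.a k ≤ P.a i :=
  pow_le_pow_of_le_one H.lam_pos.le H.lam_lt.le h

theorem a_le (k : ℕ) : P.a k ≤ 1 := H.a_anti (Nat.zero_le k)

theorem ab_mono {i k : ℕ} (h : i ≤ k) : P.a i ^ (-bb n) ≤ P.a k ^ (-bb n) :=
  Real.rpow_le_rpow_of_nonpos (H.a_pos k) (H.a_anti h) (by linarith [bb_pos H.dim])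

theorem one_le_ab (k : ℕ) : 1 ≤ P.a k ^ (-bb n) := by
  simpa [a] using H.ab_mono (Nat.zero_le k)

theorem ab_add (i J : ℕ) : P.a i ^ (-bb n) = P.a (i + J) ^ (-bb n) * (P.lam ^ J) ^ bb n := by
  have h1 := H.a_pos i
  have h2 := pow_pos H.lam_pos J
  have : P.a (i + J) = P.a i * P.lam ^ J := pow_add _ _ _
  rw [this, Real.mul_rpow h1.le h2.le, mul_assoc, ← Real.rpow_add h2]
  simp

theorem rs_pos (k : ℕ) : 0 < P.rs k := mul_pos H.r0 (Real.rpow_pos_of_pos (H.a_pos k) _)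

theorem rs_mono {i k : ℕ} (h : i ≤ k) : P.rs i ≤ P.rs k :=
  mul_le_mul_of_nonneg_left (H.ab_mono h) H.r0.le

theorem rh_pos : 0 < P.rh := H.r0.trans_le H.r1

theorem rH_mono {i k : ℕ} (h : i ≤ k) : P.rH i ≤ P.rH k :=
  mul_le_mul_of_nonneg_left (H.ab_mono h) H.rh_pos.le

theorem rs_le (k : ℕ) : P.rs k ≤ P.rH k :=
  mul_le_mul_of_nonneg_right H.r1 (Real.rpow_pos_of_pos (H.a_pos k) _).le

theorem ρ_le (k : ℕ) : P.B.ρ ≤ P.rH k :=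
  H.ρh.trans (le_mul_of_one_le_right H.rh_pos.le (H.one_le_ab k))

theorem ab_rs (k : ℕ) : P.a k ^ bb n * P.rs k = P.r₀ := by
  unfold rs
  rw [mul_left_comm, ← Real.rpow_add (H.a_pos k)]; simp

theorem ab_rH (k : ℕ) : P.a k ^ bb n * P.rH k = P.rh := by
  unfold rH
  rw [mul_left_comm, ← Real.rpow_add (H.a_pos k)]; simp

theorem rs_pow (k : ℕ) : P.rs k ^ (n - 2 : ℝ) = P.μ₁ / (2 * P.a k ^ 2) := by
  have h1 := H.a_pos k
  unfold rs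
  rw [Real.mul_rpow H.r0.le (by positivity), H.rp, ← Real.rpow_mul h1.le,
    show -bb n * (n - 2 : ℝ) = -(2 : ℕ) by linarith [nm2_bb H.dim, show ((2 : ℕ) : ℝ) = 2 by simp],
    Real.rpow_neg h1.le, Real.rpow_natCast]
  field_simp

theorem pow_nm1 {r : ℝ} (hr : 0 ≤ r) (k : ℕ) :
    P.a k ^ (2 * gam n) * (r * P.a k ^ (-bb n)) ^ (n - 1 : ℝ) = r ^ (n - 1 : ℝ) := by
  have h1 := H.a_pos k
  rw [Real.mul_rpow hr (by positivity), ← Real.rpow_mul h1.le, mul_left_comm, ← Real.rpow_add h1,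
    show 2 * gam n + -bb n * (n - 1 : ℝ) = 0 by linarith [nm1_bb H.dim], Real.rpow_zero, mul_one]

theorem μ_le : P.μ ≤ P.μ₁ := by
  refine le_trans (le_mul_of_one_le_right H.μ0.le (one_le_pow₀ (Real.one_le_exp ?_))) H.μ1
  have := H.τ0; have := H.θ0; positivity

theorem Npos : (0 : ℝ) < P.N := by exact_mod_cast (show 0 < P.N by linarith [H.N4])

theorem ρ'_mem : P.ρ' ∈ Ioo 0 (P.B.s / 8) := by
  have h1 := H.hB.s0
  have h2 := H.Npos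
  have h3 : (4 : ℝ) < P.N := by exact_mod_cast H.N4
  exact ⟨div_pos h1 (by positivity), div_lt_div_of_pos_left h1 (by norm_num) (by linarith)⟩

theorem s_lo (hk : k ≤ P.N) : P.B.s / 2 ≤ P.s k := by
  have h1 : (k : ℝ) ≤ P.N := by exact_mod_cast hk
  have h2 := mul_le_mul_of_nonneg_right h1 H.ρ'_mem.1.le
  have h3 : P.N * P.ρ' = P.B.s / 2 := by
    have := H.Npos
    unfold ρ'; field_simp
  unfold s; linarith

theorem κs_mem (hk : k ≤ P.N) : P.κs k ∈ Icc 0 (2 * P.κ) := by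
  have h1 : (k : ℝ) / P.N ≤ 1 := div_le_one_of_le₀ (by exact_mod_cast hk) H.Npos.le
  have h2 : (0 : ℝ) ≤ k / P.N := by positivity
  have := H.κ0
  unfold κs
  exact ⟨by positivity, by nlinarith⟩

theorem κs_succ (k : ℕ) : P.κs (k + 1) - P.κs k = P.κ / P.N := by
  unfold κs; push_cast; ring

theorem C'_pos : 0 < P.C' := by
  obtain ⟨_, t, -, t0, -, -, -, h⟩ := H.u1a
  exact lt_of_lt_of_le (by positivity) h

theorem C₀_ge : 4 ≤ P.C₀ := by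
  obtain ⟨t, t0, t1, -, -, h⟩ := H.u1b
  exact le_trans (by rw [le_div_iff₀ t0]; linarith) h

end Ok

theorem a_succ (k : ℕ) : P.a (k + 1) = P.a k * (1 - P.τ * (1 - P.e₂)) := pow_succ _ _

theorem s_succ (k : ℕ) : P.s (k + 1) = P.s k - P.ρ' := by unfold s; push_cast; ring

theorem ϱ_mono : Monotone (P.ϱ d) := monotone_nat_of_le_succ fun _ => le_max_left _ _

theorem ρ_le_ϱ (k : ℕ) : P.B.ρ ≤ P.ϱ d k := ϱ_mono (P := P) (d := d) (Nat.zero_le k)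

theorem R₁_le_ϱ {j : ℕ} (h : j < k) : (d j).R₁ ≤ P.ϱ d k :=
  (le_max_right _ _ : (d j).R₁ ≤ P.ϱ d (j + 1)).trans (ϱ_mono h)

theorem ϱ_cases (k : ℕ) : P.ϱ d k = P.B.ρ ∨ ∃ j < k, P.ϱ d k = (d j).R₁ := by
  induction k with
  | zero => exact Or.inl rfl
  | succ k ih =>
    rcases le_total (P.ϱ d k) (d k).R₁ with h | h
    · exact Or.inr ⟨k, by omega, max_eq_right h⟩
    · have e : P.ϱ d (k + 1) = P.ϱ d k := max_eq_left h
      rcases ih with h1 | ⟨j, hj, h1⟩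
      · exact Or.inl (e.trans h1)
      · exact Or.inr ⟨j, by omega, e.trans h1⟩

theorem Ok.ϱ_le (H : P.Ok) (hG : P.Good d k) : P.ϱ d k ≤ P.rH k := by
  rcases ϱ_cases (P := P) (d := d) k with h | ⟨j, hj, h⟩
  · rw [h]; exact H.ρ_le k
  · rw [h]; exact (hG j hj).2.1.trans (H.rH_mono hj.le)

theorem Ok.max_le_R (H : P.Ok) (k : ℕ) : max (P.ϱ d k) (P.rs k) ≤ P.R d k :=
  le_mul_of_one_le_left (le_max_of_le_right (H.rs_pos k).le) (by linarith [H.δ0])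

theorem Ok.ρ_le_R (H : P.Ok) (k : ℕ) : P.B.ρ ≤ P.R d k :=
  (ρ_le_ϱ k).trans ((le_max_left _ _).trans (H.max_le_R k))

theorem Ok.rs_le_R (H : P.Ok) (k : ℕ) : P.rs k ≤ P.R d k :=
  (le_max_right _ _).trans (H.max_le_R k)

theorem Ok.R_mono (H : P.Ok) {i : ℕ} (h : i ≤ k) : P.R d i ≤ P.R d k :=
  mul_le_mul_of_nonneg_left (max_le_max (ϱ_mono h) (H.rs_mono h)) (by linarith [H.δ0])

theorem Ok.R_le (H : P.Ok) (hG : P.Good d k) : P.R d k ≤ 3 / 2 * P.rH k :=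
  mul_le_mul (by linarith [H.δ1]) (max_le (H.ϱ_le hG) (H.rs_le k))
    (le_max_of_le_right (H.rs_pos k).le) (by norm_num)

end Pm

end Vale.Agent.P366Z
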