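import Vale.Agent.P366Z.Fl.F1

/-!
# P366Z: existence of the flow, nesting, loss of area
-/

open MeasureTheory Metric Filter Topology Set
open scoped ContDiff ENNReal
open Vale.Agent.P366.Stmt

noncomputable section

namespace Vale.Agent.P366Z

variable {n : ℕ}

/-- the conclusion of `ONE` -/
def OneC (B : Bg n) (L : ℝ) (m : E n → ℝ) (a₀ κ₀ δ₀ C' c' C C₀ c K D : ℝ) : Prop :=
  ∀ U a β R s', St B U a β R s' → a₀ ≤ a →
    ∀ κ ∈ Icc 0 κ₀, ∀ r, Cf B L U a κ C' c' r → 2 * D ≤ c' * a ^ bb n * r →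
      ∀ η' > (0 : ℝ), ∀ ρ' ∈ Ioo 0 (B.s / 8), ∀ η > (0 : ℝ), ∃ ψ h βh R₁,
        Out B L m U a β s' κ δ₀ η' ρ' η C ψ h βh R₁ ∧ R₁ ≤ r ∧ Tip B U a C₀ c K D η ψ R₁

/-- the conclusion of `AREA` -/
def AreaC (n : ℕ) (C : ℝ) : Prop := ∀ (B : Bg n) L m p q U a β R s' h η' η'' f
  (τ κ η e V : ℝ) ψ, B.Ok → Pen B L m p q → St B U a β R s' → Smooth h → (∀ x, 0 < h x ∧ h x ≤ 1) →
  (∀ x, B.F x ≤ B.s / 4 → h x ≤ η') → Fc η' η'' f → 0 < η' → τ ∈ Ioc (0 : ℝ) (1 / 2) → 0 ≤ κ →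
  0 ≤ η → 0 ≤ e → 0 ≤ V → Near B L m (fun x => U x * (1 - τ * f (h x))) κ η ψ →
  ∫⁻ x, ENNReal.ofReal (U x ^ 2 * ip B.g h h x * dens B.g x) ≤ ENNReal.ofReal e →
  ∫⁻ x in {x | η' < h x ∧ ψ x < 1}, ENNReal.ofReal (dens B.g x) ≤ ENNReal.ofReal V →
  per B U ψ ≤ per B (fun x => U x * (1 - τ * f (h x))) ψ +
    C * τ * (√(e * V) + η + κ * ∫ x, m x * dens B.g x)

section

variable {B : Bg n} {L : ℝ} {m p q u v : E n → ℝ}

theorem set_le_int (hB : B.Ok) (hP : Pen B L m p q) (hu : Continuous u) (h0 : ∀ x, 0 ≤ u x)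
    {A : Set (E n)} (hA : MeasurableSet A) (e : ∀ x ∈ A, 1 ≤ m x * u x) :
    ∫⁻ x in A, ENNReal.ofReal (dens B.g x) ≤ ENNReal.ofReal (∫ x, m x * u x * dens B.g x) := by
  rw [ofReal_integral_eq_lintegral_ofReal (Cls.int_vol hB hP hu) (Eventually.of_forall fun x =>
    mul_nonneg (mul_nonneg (hP.m01 x).1 (h0 x)) (dens_nonneg _ _))]
  refine le_trans (setLIntegral_mono' hA fun x hx => ENNReal.ofReal_le_ofReal ?_)
    (setLIntegral_le_lintegral _ _)
  exact le_mul_of_one_le_left (dens_nonneg _ _) (e x hx)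

theorem vol_mono (hB : B.Ok) (hP : Pen B L m p q) (hu : Continuous u) (hv : Continuous v)
    (e : ∀ x, u x ≤ v x) : ∫ x, m x * u x * dens B.g x ≤ ∫ x, m x * v x * dens B.g x :=
  integral_mono (Cls.int_vol hB hP hu) (Cls.int_vol hB hP hv) fun x =>
    mul_le_mul_of_nonneg_right (mul_le_mul_of_nonneg_left (e x) (hP.m01 x).1) (dens_nonneg _ _)

theorem vol_add (hB : B.Ok) (hP : Pen B L m p q) (hu : Continuous u) (hv : Continuous v) :
    ∫ x, m x * (u x + v x) * dens B.g x =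
      (∫ x, m x * u x * dens B.g x) + ∫ x, m x * v x * dens B.g x := by
  rw [← integral_add (Cls.int_vol hB hP hu) (Cls.int_vol hB hP hv)]
  congr 1; funext x; ring

theorem vol_nonneg (hP : Pen B L m p q) (h0 : ∀ x, 0 ≤ u x) : 0 ≤ ∫ x, m x * u x * dens B.g x :=
  integral_nonneg fun x => mul_nonneg (mul_nonneg (hP.m01 x).1 (h0 x)) (dens_nonneg _ _)

theorem vol_le (hB : B.Ok) (hP : Pen B L m p q) (hu : Cls B L u) :
    ∫ x, m x * u x * dens B.g x ≤ ∫ x, m x * dens B.g x := by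
  simpa using vol_mono hB hP hu.lip.cont (v := fun _ => 1) continuous_const fun x => (hu.mem x).2

theorem sqrt_mul_le {e V t : ℝ} (he : 0 ≤ e) (hV : 0 ≤ V) (ht : 0 < t) :
    √(e * V) ≤ e * t / 2 + V / (2 * t) := by
  refine Real.sqrt_le_iff.2 ⟨by positivity, ?_⟩
  have : (e * t / 2 + V / (2 * t)) ^ 2 = e * V + (e * t / 2 - V / (2 * t)) ^ 2 := by
    field_simp; ring
  rw [this]; nlinarith [sq_nonneg (e * t / 2 - V / (2 * t))]

end

namespace Pm

variable {P : Pm n} {d : ℕ → Dt n} {k K i : ℕ}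

/-- the relations that give the existence of the flow -/
structure Ex (P : Pm n) (a₀ κ₀ c' : ℝ) : Prop where
  one : OneC P.B P.L P.m a₀ κ₀ P.θ P.C' c' P.C P.C₀ P.c P.K P.D
  ha : a₀ ≤ P.a P.N
  hκ : 2 * P.κ ≤ κ₀
  c0 : 0 < c'
  hL : P.rH P.N ≤ P.L
  hρ : P.B.ρ ≤ c' * P.rh
  per : omega n * P.B.ρ ^ (n - 1 : ℝ) * 2 ^ (2 * gam n) + 1 ≤ c' * P.rh ^ (n - 1 : ℝ)
  kap : ∀ x, 2 * P.κ * (P.L + 1) ^ n * dens P.B.g x ≤ c' * P.a P.N ^ (2 * gam n)
  hD : 2 * P.D ≤ c' * P.rh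

namespace Ok

variable (H : P.Ok)
include H

theorem exists_run (hU : UPD) (hL : HLOW) (hR : RAMP) {a₀ κ₀ c' : ℝ} (X : P.Ex a₀ κ₀ c') :
    ∀ K ≤ P.N, ∃ d, P.Good d K := by
  intro K hK
  induction K with
  | zero => exact ⟨fun _ => ⟨0, 0, 0, 0⟩, fun k hk => absurd hk (by omega)⟩
  | succ K ih =>
    obtain ⟨d, hG⟩ := ih (by omega)
    have hK' : K ≤ P.N := by omega
    have hI := H.inv hU hL hG hK'
    have hS := (hI K le_rfl).1
    have hκ := H.κs_mem hK'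
    have hγ : 0 ≤ 2 * gam n := by linarith [one_lt_gam H.dim]
    have L0 : 0 ≤ P.L + 1 := by linarith [H.hP.big, H.hB.one]
    obtain ⟨ψ, h, βh, R₁, h1⟩ := X.one _ _ _ _ _ hS (X.ha.trans (H.a_anti hK')) (P.κs K)
      ⟨hκ.1, hκ.2.trans X.hκ⟩ (P.rH K) ⟨(H.rH_mono hK').trans X.hL,
        X.hρ.trans (mul_le_mul_of_nonneg_left
          (le_mul_of_one_le_right H.rh_pos.le (H.one_le_ab K)) X.c0.le),
        fun x hx => H.up1 hG hI hK' hx, by
          obtain ⟨ψ, h1, h2⟩ := hR n P.B (P.U d K) P.L P.B.ρ 2 1 H.hB hS.sm.cont le_rfl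
            (by linarith [H.hP.big, H.hB.one]) one_pos
            fun x _ => ⟨(hS.pos H.hB x).le, hS.le_two H.hB x⟩
          refine ⟨ψ, h1, h2.trans (X.per.trans (le_of_eq ?_))⟩
          rw [mul_assoc]; unfold rH; rw [H.pow_nm1 H.rh_pos.le],
        fun x => le_trans (by
          have := dens_nonneg P.B.g x
          gcongr; exact hκ.2) ((X.kap x).trans (mul_le_mul_of_nonneg_left
            (Real.rpow_le_rpow (H.a_pos _).le (H.a_anti hK') hγ) X.c0.le))⟩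
      (by rw [mul_assoc, H.ab_rH]; exact X.hD) P.θ H.θ0 P.ρ' H.ρ'_mem P.η H.η0
    exact ⟨_, hG.update (t := ⟨ψ, h, βh, R₁⟩) h1⟩

theorem U_keep (hG : P.Good d (k + 1)) {x : E n} (hx : (d k).ψ x < 1) :
    P.U d (k + 1) x = P.U d k x := by
  simp only [U]
  rw [H.hf.zero _ ((hG k (by omega)).1.small x (Or.inl hx))]; ring

theorem nest (hN : NEST) (hG : P.Good d (k + 2)) (hI : ∀ j ≤ k + 1, P.Inv d j) :
    ∫ x, P.m x * max ((d (k + 1)).ψ x - (d k).ψ x) 0 * dens P.B.g x ≤ 2 * P.η * P.N / P.κ := by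
  have h1 := hN n P.B P.L P.m P.p P.q _ _ _ _ _ _ _ H.hB H.hP (hI k (by omega)).1.sm.cont
    (hI (k + 1) le_rfl).1.sm.cont
    (fun x => ⟨(hI k (by omega)).1.pos H.hB x, (hI (k + 1) le_rfl).1.pos H.hB x⟩)
    (fun x hx => H.U_keep (hG.mono (by omega)) hx) (hG k (by omega)).1.near
    (hG (k + 1) (by omega)).1.near
  rw [H.κs_succ] at h1
  rw [le_div_iff₀ H.κ0]
  have := H.Npos
  rw [div_mul_eq_mul_div, div_le_iff₀ this] at h1
  linarith

theorem nest' (hN : NEST) (hG : P.Good d (k + 1)) (hI : ∀ j ≤ k, P.Inv d j) (hi : i ≤ k) :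
    ∫ x, P.m x * max ((d k).ψ x - (d i).ψ x) 0 * dens P.B.g x ≤
      k * (2 * P.η * P.N / P.κ) := by
  have c : ∀ j ≤ k, Continuous (d j).ψ := fun j hj => (hG j (by omega)).1.near.1.lip.cont
  have n0 : 0 ≤ 2 * P.η * P.N / P.κ := by have := H.η0; have := H.κ0; positivity
  induction k, hi using Nat.le_induction with
  | base => simp; positivity
  | succ k hk ih =>
    have h1 := ih (hG.mono (by omega)) (fun j hj => hI j (by omega)) fun j hj => c j (by omega)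
    have h2 := H.nest hN hG hI
    have c1 : Continuous fun x => max ((d (k + 1)).ψ x - (d k).ψ x) 0 :=
      ((c _ le_rfl).sub (c k (by omega))).max continuous_const
    have c2 : Continuous fun x => max ((d k).ψ x - (d i).ψ x) 0 :=
      ((c k (by omega)).sub (c i (by omega))).max continuous_const
    have h3 := vol_mono H.hB H.hP
      (((c _ le_rfl).sub (c i (by omega))).max (continuous_const (y := (0 : ℝ)))) (c1.add c2)
      fun x => max_le (by
        simp only [Pi.sub_apply, Pi.add_apply]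
        linarith [le_max_left ((d (k + 1)).ψ x - (d k).ψ x) 0,
          le_max_left ((d k).ψ x - (d i).ψ x) 0]) (add_nonneg (le_max_right _ _) (le_max_right _ _))
    have h4 := vol_add H.hB H.hP c1 c2
    simp only [Pi.sub_apply, Pi.add_apply] at h3
    push_cast
    linarith

theorem ener_le (hG : P.Good d (k + 1)) (hI : P.Inv d k) (hk : k ≤ P.N) :
    (n - 2) * omega n * P.a k * (P.β d k - (d k).βh) ≤ 3 * (n - 2) * omega n * P.μ := by
  have h1 := (hG k (by omega)).1.mass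
  have h2 := H.β_nonneg hG (show k < k + 1 by omega)
  have h3 : P.β d k - (d k).βh ≤ 3 * P.β d k := by
    by_contra h4
    nlinarith [not_le.1 h4, H.θ1, H.θ0]
  have h4 := (hI.2.trans (H.μE_le hk)).trans H.μ2
  have h5 := mul_le_mul_of_nonneg_left h3 (H.a_pos k).le
  have h6 := mul_pos (nm2_pos H.dim) (omega_pos (n := n) (by linarith [H.dim]))
  nlinarith

theorem area_step {CA Λ t : ℝ} (hA : AreaC n CA) (CA0 : 0 < CA) (hN : NEST) (hΛ : Ell P.B.g Λ)
    (ht : 0 < t) (hG : P.Good d (k + 2)) (hI : ∀ j ≤ k + 1, P.Inv d j) (hk : k + 1 ≤ P.N) :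
    pp P.B P.m (P.U d k) (P.κs k) (d k).ψ ≤
      pp P.B P.m (P.U d (k + 1)) (P.κs (k + 1)) (d (k + 1)).ψ + P.η +
      CA * P.τ * (3 * (n - 2) * omega n * P.μ * t / 2 + P.η + 2 * P.κ * (∫ x, P.m x * dens P.B.g x) +
        ((∫ x, P.m x * (d k).ψ x * dens P.B.g x) - (∫ x, P.m x * (d (k + 1)).ψ x * dens P.B.g x) +
          (2 * P.η * P.N / P.κ + Λ * P.η)) / (2 * t)) := by
  have hO := (hG k (by omega)).1
  have hO' := (hG (k + 1) (by omega)).1
  have c0 := hO.near.1.lip.cont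
  have c1 := hO'.near.1.lip.cont
  set I := ∫ x, P.m x * (d k).ψ x * dens P.B.g x
  set I' := ∫ x, P.m x * (d (k + 1)).ψ x * dens P.B.g x with hI'
  set V := I - I' + (2 * P.η * P.N / P.κ + Λ * P.η) with hV
  have e0 : 0 ≤ 3 * (n - 2) * omega n * P.μ := by
    have := nm2_pos H.dim
    have := omega_pos (n := n) (by linarith [H.dim])
    have := H.μ0
    positivity
  have cp : Continuous fun x => max ((d k).ψ x - (d (k + 1)).ψ x) 0 :=
    (c0.sub c1).max continuous_const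
  have cq : Continuous fun x => max ((d (k + 1)).ψ x - (d k).ψ x) 0 :=
    (c1.sub c0).max continuous_const
  have v1 : ∫ x, P.m x * max ((d k).ψ x - (d (k + 1)).ψ x) 0 * dens P.B.g x ≤
      I - I' + 2 * P.η * P.N / P.κ := by
    have h1 := vol_add H.hB H.hP cp c1
    have h2 := vol_add H.hB H.hP cq c0
    have h3 : ∀ x, max ((d k).ψ x - (d (k + 1)).ψ x) 0 + (d (k + 1)).ψ x =
        max ((d (k + 1)).ψ x - (d k).ψ x) 0 + (d k).ψ x := fun x => by
      rcases le_total ((d k).ψ x) ((d (k + 1)).ψ x) with h | h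
      · rw [max_eq_right (by linarith), max_eq_left (by linarith)]; ring
      · rw [max_eq_left (by linarith), max_eq_right (by linarith)]; ring
    simp only [h3] at h1
    linarith [H.nest hN hG hI]
  have v0 := vol_nonneg H.hP (u := fun x => max ((d k).ψ x - (d (k + 1)).ψ x) 0)
    fun x => le_max_right _ _
  have Λη : 0 ≤ Λ * P.η := mul_nonneg (zero_le_one.trans hΛ.one) H.η0.le
  have V0 : 0 ≤ V := by linarith
  have v2 : ∫⁻ x in {x | P.θ < (d k).h x ∧ (d (k + 1)).ψ x < 1}, ENNReal.ofReal (dens P.B.g x) ≤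
      ENNReal.ofReal V := by
    have s1 : {x | P.θ < (d k).h x ∧ (d (k + 1)).ψ x < 1} ⊆
        {x | (d k).ψ x = 1 ∧ (d (k + 1)).ψ x = 0} ∪
          {x | 0 < (d (k + 1)).ψ x ∧ (d (k + 1)).ψ x < 1} := by
      rintro x ⟨x1, x2⟩
      rcases (hO'.near.1.mem x).1.eq_or_lt with h | h
      · refine Or.inl ⟨?_, h.symm⟩
        by_contra h1
        exact not_le.2 x1 (hO.small x (Or.inl (lt_of_le_of_ne (hO.near.1.mem x).2 h1)))
      · exact Or.inr ⟨h, x2⟩
    have s2 := set_le_int H.hB H.hP cp (fun x => le_max_right _ _)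
      (A := {x | (d k).ψ x = 1 ∧ (d (k + 1)).ψ x = 0})
      ((isClosed_eq c0 continuous_const).inter (isClosed_eq c1 continuous_const)).measurableSet
      fun x hx => by
        have h1 : ‖x‖ ≤ P.L := by
          by_contra h2
          have := hO'.near.1.one x (not_le.1 h2).le
          rw [hx.2] at this; exact zero_ne_one this
        rw [H.hP.m1 x h1, hx.1, hx.2]; simp
    have s3 : ∫⁻ x in {x | 0 < (d (k + 1)).ψ x ∧ (d (k + 1)).ψ x < 1},
        ENNReal.ofReal (dens P.B.g x) ≤ ENNReal.ofReal (Λ * P.η) := by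
      refine (lintegral_mono fun x => ENNReal.ofReal_le_ofReal (hΛ.dens_hi x)).trans ?_
      rw [setLIntegral_const, ENNReal.ofReal_mul (zero_le_one.trans hΛ.one)]
      exact mul_le_mul' le_rfl hO'.thin
    refine (lintegral_mono_set s1).trans ((lintegral_union_le _ _ _).trans ?_)
    refine (add_le_add (s2.trans (ENNReal.ofReal_le_ofReal v1)) s3).trans ?_
    rw [← ENNReal.ofReal_add (by linarith) Λη]
    exact ENNReal.ofReal_le_ofReal (by linarith)
  have κ1 := H.κs_mem hk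
  have h1 := hA P.B P.L P.m P.p P.q _ _ _ _ _ (d k).h P.θ P.e₂ P.f P.τ (P.κs (k + 1)) P.η _ V
    (d (k + 1)).ψ H.hB H.hP (hI k (by omega)).1 hO.sm hO.h01
    (fun x hx => hO.small x (Or.inr (by
      rw [← s_succ]; linarith [H.s_lo hk, H.hB.s0]))) H.hf H.θ0 ⟨H.τ0, H.τ1⟩ κ1.1 H.η0.le e0 V0
    hO'.near (hO.ener.trans (ENNReal.ofReal_le_ofReal
      (H.ener_le (hG.mono (by omega)) (hI k (by omega)) (by omega)))) v2
  have h2 := hO.near.2 _ hO'.near.1
  have h3 := sqrt_mul_le e0 V0 ht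
  have I0 : 0 ≤ I' := vol_nonneg H.hP fun x => (hO'.near.1.mem x).1
  have W0 : 0 ≤ ∫ x, P.m x * dens P.B.g x := I0.trans (vol_le H.hB H.hP hO'.near.1)
  have h4 : P.κs k * I' ≤ P.κs (k + 1) * I' := mul_le_mul_of_nonneg_right (by
    linarith [H.κs_succ k, div_pos H.κ0 H.Npos]) I0
  have h5 := mul_le_mul_of_nonneg_right κ1.2 W0
  have h6 := mul_le_mul_of_nonneg_left (add_le_add (add_le_add h3 (le_refl P.η)) h5)
    (mul_pos CA0 H.τ0).le
  have e1 : P.U d (k + 1) = fun x => P.U d k x * (1 - P.τ * P.f ((d k).h x)) := rfl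
  rw [← e1] at h1
  unfold pp at h2 ⊢
  linarith

theorem area {CA Λ t : ℝ} (hA : AreaC n CA) (CA0 : 0 < CA) (hN : NEST) (hΛ : Ell P.B.g Λ)
    (ht : 0 < t) (hG : P.Good d (k + 1)) (hI : ∀ j ≤ k, P.Inv d j) (hk : k ≤ P.N) {ψ : E n → ℝ}
    (hψ : Cls P.B P.L ψ) : per P.B P.B.U (d 0).ψ ≤ per P.B (P.U d k) ψ +
      ((P.N + 1) * P.η + 2 * P.κ * (∫ x, P.m x * dens P.B.g x) +
      CA * (P.N * P.τ) * (3 * (n - 2) * omega n * P.μ * t / 2 + P.η +
        2 * P.κ * (∫ x, P.m x * dens P.B.g x) + (2 * P.η * P.N / P.κ + Λ * P.η) / (2 * t)) +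
      CA * P.τ * (∫ x, P.m x * dens P.B.g x) / (2 * t)) := by
  set W := ∫ x, P.m x * dens P.B.g x with hW
  set Z := P.η + CA * P.τ * (3 * (n - 2) * omega n * P.μ * t / 2 + P.η + 2 * P.κ * W +
    (2 * P.η * P.N / P.κ + Λ * P.η) / (2 * t)) with hZ
  have cl : ∀ j ≤ k, Cls P.B P.L (d j).ψ := fun j hj => (hG j (by omega)).1.near.1
  have I0 : ∀ j ≤ k, 0 ≤ ∫ x, P.m x * (d j).ψ x * dens P.B.g x := fun j hj =>
    vol_nonneg H.hP fun x => ((cl j hj).mem x).1
  have W0 : 0 ≤ W := (I0 0 (by omega)).trans (vol_le H.hB H.hP (cl 0 (by omega)))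
  have key : ∀ j ≤ k, pp P.B P.m (P.U d 0) (P.κs 0) (d 0).ψ ≤
      pp P.B P.m (P.U d j) (P.κs j) (d j).ψ + j * Z + CA * P.τ / (2 * t) *
        ((∫ x, P.m x * (d 0).ψ x * dens P.B.g x) - ∫ x, P.m x * (d j).ψ x * dens P.B.g x) := by
    intro j hj
    induction j with
    | zero => simp
    | succ j ih =>
      have h1 := ih (by omega)
      have h2 := H.area_step hA CA0 hN hΛ ht (hG.mono (show j + 2 ≤ k + 1 by omega))
        (fun i hi => hI i (by omega)) (by omega)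
      rw [add_div, ← hW] at h2
      push_cast
      have h3 : ∀ X : ℝ, CA * P.τ * (X / (2 * t)) = CA * P.τ / (2 * t) * X := fun X => by ring
      have h4 := h3 ((∫ x, P.m x * (d j).ψ x * dens P.B.g x) -
        ∫ x, P.m x * (d (j + 1)).ψ x * dens P.B.g x)
      linarith
  have h1 := key k le_rfl
  have h2 := (hG k (by omega)).1.near.2 ψ hψ
  have κ1 := H.κs_mem hk
  have h3 : P.κs k * ∫ x, P.m x * ψ x * dens P.B.g x ≤ 2 * P.κ * W :=
    mul_le_mul κ1.2 (vol_le H.hB H.hP hψ) (vol_nonneg H.hP fun x => (hψ.mem x).1)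
      (by linarith [H.κ0])
  have h4 := mul_nonneg (H.κs_mem (Nat.zero_le _)).1 (I0 0 (by omega))
  have Z0 : 0 ≤ Z := by
    have := nm2_pos H.dim
    have := omega_pos (n := n) (by linarith [H.dim])
    have := H.μ0; have := H.η0; have := H.κ0; have := H.τ0; have := hΛ.one
    positivity
  have h5 : (k : ℝ) * Z ≤ P.N * Z := mul_le_mul_of_nonneg_right (by exact_mod_cast hk) Z0
  have h6 : CA * P.τ / (2 * t) * ((∫ x, P.m x * (d 0).ψ x * dens P.B.g x) -
      ∫ x, P.m x * (d k).ψ x * dens P.B.g x) ≤ CA * P.τ / (2 * t) * W :=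
    mul_le_mul_of_nonneg_left (by linarith [I0 k le_rfl, vol_le H.hB H.hP (cl 0 (by omega))])
      (by have := H.τ0; positivity)
  have e1 : P.U d 0 = P.B.U := rfl
  rw [e1] at h1
  unfold pp at h1 h2
  have e2 : CA * P.τ / (2 * t) * W = CA * P.τ * W / (2 * t) := by ring
  have e3 : P.N * Z = P.N * P.η + CA * (P.N * P.τ) * (3 * (n - 2) * omega n * P.μ * t / 2 + P.η +
      2 * P.κ * W + (2 * P.η * P.N / P.κ + Λ * P.η) / (2 * t)) := by rw [hZ]; ring
  linarith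

end Ok

end Pm

end Vale.Agent.P366Z
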